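import Mathlib.Algebra.Group.ForwardDiff
import Mathlib.Algebra.Order.Chebyshev
import Mathlib.Algebra.Order.Ring.Star
import Mathlib.Algebra.Order.Star.Real
import Mathlib.Algebra.Ring.IsFormallyReal
import Mathlib.Analysis.CStarAlgebra.Classes
import Mathlib.Analysis.Complex.Angle
import Mathlib.Analysis.Complex.ExponentialBounds
import Mathlib.Analysis.Fourier.FiniteAbelian.PontryaginDuality
import Mathlib.Analysis.Real.Pi.Bounds
import Mathlib.Combinatorics.Additive.AP.Three.Defs
import Mathlib.Combinatorics.Pigeonhole
import Mathlib.Computability.Reduce
import Mathlib.Data.Int.Star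
import Mathlib.Data.Rat.Star
import Mathlib.NumberTheory.Chebyshev
import Mathlib.Tactic

/-! The part of Mathlib that the development of this folder uses. -/
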